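import Vale.Agent.P144Z.U1.Zero

/-!
A priori bounds for the spin correlations of the critical nearest-neighbour model.
-/

namespace Vale.Agent.P144Z.Z0

open Vale.Agent.P144 Finset Filter Topology

theorem cl_upper {J : ℝ} (hJ : 0 < J) (n : ℕ) :
    ∃ C : ℝ, 0 ≤ C ∧ ∀ (A : Finset Site) (r : ℕ), A.card = n → 2 ≤ r →
      (∀ u ∈ A, ∀ v ∈ A, u ≠ v → (r : ℤ) ≤ |u.1 - v.1| + |u.2 - v.2|) →
      0 ≤ H436.cl (Kc / J) J A ∧ H436.cl (Kc / J) J A ≤ C * (r : ℝ) ^ (-(n : ℝ) / 8) := by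
  have hβ : 0 ≤ Kc / J := (div_pos H436.kc_pos hJ).le
  obtain ⟨C, hC, h⟩ := H436.fcor_upper hJ (fun _ hk => fcor_box_diag hJ hk) Dg_asymp n
  refine ⟨C, hC, fun A r hA hr hd => ⟨H436.cl_nonneg hβ hJ.le A, ?_⟩⟩
  refine le_of_tendsto (H436.cl_tendsto hβ hJ.le A) ?_
  filter_upwards [H436.subset_box A] with M hM
  rw [← H436.fcor_eq]
  exact h _ A r hM hA hr hd

/-- The same on large tori. -/
theorem gibbsT_upper {J : ℝ} (hJ : 0 < J) (n : ℕ) :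
    ∃ C : ℝ, 0 ≤ C ∧ ∀ (A : Finset Site) (r : ℕ), A.card = n → 2 ≤ r →
      (∀ u ∈ A, ∀ v ∈ A, u ≠ v → (r : ℤ) ≤ |u.1 - v.1| + |u.2 - v.2|) →
      ∀ V : Finset Site → ℝ, ∀ᶠ M in atTop,
        |gibbsT J 0 V (Kc / J) M fun σ => ∏ x ∈ A, sp (σ x)| ≤ C * (r : ℝ) ^ (-(n : ℝ) / 8) := by
  obtain ⟨C, hC, h⟩ := cl_upper hJ n
  refine ⟨C + 1, by positivity, fun A r hA hr hd V => ?_⟩
  obtain ⟨h1, h2⟩ := h A r hA hr hd
  have h3 := (U1.zero_tendsto hJ V A).abs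
  rw [abs_of_nonneg h1] at h3
  have h4 : (0 : ℝ) < (r : ℝ) ^ (-(n : ℝ) / 8) := by positivity
  exact (h3.eventually (gt_mem_nhds (by nlinarith))).mono fun M hM => hM.le

end Vale.Agent.P144Z.Z0
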